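import Crest.Agent.R271.H.RegMol
import Crest.Agent.R271.H.Mon

/-! # Row 271, block H (regularity): Weyl's lemma for `∂̄` -/

set_option autoImplicit false
set_option linter.unusedSectionVars false

open MeasureTheory Filter Topology Set Metric
open scoped ENNReal ContDiff

noncomputable section

namespace Crest.Agent.R271.Reg

variable {n : ℕ} {M : Type} [TopologicalSpace M] [T2Space M] [SecondCountableTopology M]
  [MeasurableSpace M] [BorelSpace M] {D : Dom n M}

/-- `T k g` (`exists_mol`) is holomorphic on `V` (`db_basis`, `Dom.hol_of_db`) and Cauchy in `L²(V)`, so uniformly Cauchy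
near `y₀` (`stMV`); the limit is holomorphic (`mon_weier` in the chart) and equal to `g` a.e. (`L2.ae_eq`). -/
theorem weyl_loc {g : M → ℂ} (hg : Loc2 D g)
    (h : ∀ χ, Tst D χ → ∀ j, ∫ y, g y * D.db χ y (ee j) ∂D.μ = 0) (y₀ : M) :
    ∃ U, IsOpen U ∧ y₀ ∈ U ∧ ∃ F, D.HolOn F U ∧ g =ᵐ[D.μ.restrict U] F := by
  obtain ⟨U, V, hU, hV, hy, hVU, ⟨K, hK, hUK⟩, T, χ, hT, hχ⟩ := exists_mol D y₀
  have hm : MemLp g 2 (D.μ.restrict U) := (hg K hK).mono_measure (Measure.restrict_mono hUK le_rfl)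
  obtain ⟨hv, hL⟩ := hT g hm
  have hol : ∀ k, D.HolOn (T k g) V := fun k y hy => Dom.hol_of_db ((hv k).dif y) fun ξ => by
    rw [db_basis]
    refine Finset.sum_eq_zero fun j _ => ?_
    rw [((hχ k y hy).2 g hm (ee j) (ee j)).1, h _ (hχ k y hy).1 j, neg_zero, mul_zero]
  obtain ⟨W, hW, C, hC⟩ := stMV n M D y₀ V hV hy
  have hL' := hL.mono (Measure.restrict_mono hVU le_rfl)
  have hb : ∀ k l, ∀ y ∈ W, ‖T k g y - T l g y‖ ≤ C * √(2 * ∫ x in V, ‖T k g x - g x‖ ^ 2 ∂D.μ +
      2 * ∫ x in V, ‖T l g x - g x‖ ^ 2 ∂D.μ) := fun k l y hy => by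
    refine (hC (fun x => T k g x - T l g x) _ (fun x hx => (hol k x hx).sub (hol l x hx)) (Real.sqrt_nonneg _)
      ?_ y hy).1
    have h1 := hL'.cauchy k l
    rw [Real.sq_sqrt ((integral_nonneg fun _ => sq_nonneg _).trans h1),
      ← ofReal_integral_eq_lintegral_ofReal (f := fun x => ‖T k g x - T l g x‖ ^ 2)
        (int_sq ((hL'.mem k).sub (hL'.mem l))) (.of_forall fun _ => sq_nonneg _)]
    exact ENNReal.ofReal_le_ofReal h1
  have hc : UniformCauchySeqOn (fun k => T k g) atTop W := by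
    have h1 := ((((hL'.tend.const_mul 2).comp (tendsto_fst (g := atTop))).add
      ((hL'.tend.const_mul 2).comp (tendsto_snd (f := atTop)))).sqrt).const_mul C
    simp only [mul_zero, add_zero, Real.sqrt_zero] at h1
    intro u hu
    obtain ⟨δ, hδ, hu⟩ := mem_uniformity_dist.1 hu
    filter_upwards [h1.eventually (gt_mem_nhds hδ)] with q hq y hy
    exact hu (dist_eq_norm (T q.1 g y) _ ▸ (hb q.1 q.2 y hy).trans_lt hq)
  have hp : ∀ y ∈ W, Tendsto (fun k => T k g y) atTop (𝓝 (limUnder atTop fun k => T k g y)) := fun y hy =>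
    (hc.cauchySeq hy).tendsto_limUnder
  have hu := hc.tendstoUniformlyOn_of_tendsto hp
  have ho : IsOpen (interior W ∩ V) := isOpen_interior.inter hV
  refine ⟨interior W ∩ V, ho, ⟨mem_interior_iff_mem_nhds.2 hW, hy⟩, fun y => limUnder atTop fun k => T k g y,
    fun y hy => ?_, (hL'.mono (Measure.restrict_mono inter_subset_right le_rfl)).ae_eq
      ((ae_restrict_mem ho.measurableSet).mono fun y hy => hp y (interior_subset hy.1))⟩
  have hO := (D.ch y).isOpen_inter_preimage_symm ho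
  refine (mon_weier hO (fun k z hz => (D.mv_hol (hol k) y hz.1 hz.2.2).differentiableWithinAt)
    ((hu.comp (D.ch y).symm).mono fun z hz => interior_subset (s := W) hz.2.1).tendstoLocallyUniformlyOn).differentiableAt
    (hO.mem_nhds ⟨D.ch_target y, by simpa using hy⟩)

/-- `F y = F_y y`; `eqOn_of_ae` on overlaps; countable subcover -/
theorem weyl_glue {g : M → ℂ} (h : ∀ y₀, ∃ U, IsOpen U ∧ y₀ ∈ U ∧ ∃ F, D.HolOn F U ∧ g =ᵐ[D.μ.restrict U] F) :
    ∃ F, D.Hol F ∧ g =ᵐ[D.μ] F := by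
  choose U hU hy F hF hg using h
  have hc : ∀ y, ContinuousOn (F y) (U y) := fun y x hx =>
    (Dom.dif_of_hol (hF y x hx)).continuousAt.continuousWithinAt
  have key : ∀ y, ∀ x ∈ U y, F x x = F y x := fun y x hx =>
    eqOn_of_ae (D := D) ((hU x).inter (hU y)) ((hc x).mono inter_subset_left) ((hc y).mono inter_subset_right)
      ((ae_restrict_of_ae_restrict_of_subset inter_subset_left (hg x)).mp
        ((ae_restrict_of_ae_restrict_of_subset inter_subset_right (hg y)).mono fun z h1 h2 => h2.symm.trans h1))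
      ⟨hy x, hx⟩
  refine ⟨fun x => F x x, fun y _ => (hF y y (hy y)).congr_of_eventuallyEq
    (D.ev_comp (eventually_of_mem ((hU y).mem_nhds (hy y)) (key y))), ?_⟩
  refine measure_null_of_locally_null _ fun x _ => ⟨_, inter_mem_nhdsWithin _ ((hU x).mem_nhds (hy x)), ?_⟩
  refine measure_mono_null (fun z hz => ?_) ((ae_restrict_iff' (hU x).measurableSet).1 (hg x))
  exact fun k => hz.1 ((k hz.2).trans (key x z hz.2).symm)

theorem weyl {g : M → ℂ} (hg : Loc2 D g) (h : ∀ χ, Tst D χ → ∀ j, ∫ y, g y * D.db χ y (ee j) ∂D.μ = 0) :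
    ∃ F, D.Hol F ∧ g =ᵐ[D.μ] F := weyl_glue (weyl_loc hg h)

end Crest.Agent.R271.Reg
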