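import Crest.Agent.R271.H.RegGl
import Crest.Agent.R271.H.RegWeyl

/-! # Row 271, block H: weak solutions are holomorphic (owner helper99) -/

set_option autoImplicit false
set_option linter.unusedSectionVars false

open MeasureTheory Filter Topology Set
open scoped ENNReal ContDiff

noncomputable section

namespace Crest.Agent.R271.Dom

variable {n : ℕ} {M : Type} [TopologicalSpace M] [T2Space M] [SecondCountableTopology M]
  [MeasurableSpace M] [BorelSpace M]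

/-- a locally `L²` solution of `∑ ∂_j (a ∂̄_j g) = 0` which satisfies the Caccioppoli condition at infinity is
holomorphic -/
theorem hol_of_orth (D : Dom n M) {g : M → ℂ} {a : M → ℝ} (ha : D.Sm a) (hpos : ∀ y, 0 < a y)
    (hg : ∀ K, IsCompact K → MemLp g 2 (D.μ.restrict K)) (b : ℕ → M → ℝ)
    (hb : ∀ ν, D.Sm (b ν) ∧ HasCompactSupport (b ν))
    (hb1 : ∀ K, IsCompact K → ∀ᶠ ν in atTop, ∀ y ∈ K, b ν y = 1)
    (hlim : Tendsto (fun ν => ∫ y, a y * (∑ j, ‖D.dz (fun y => (b ν y : ℂ)) y (Pi.single j 1)‖ ^ 2) *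
      ‖g y‖ ^ 2 ∂D.μ) atTop (𝓝 0))
    (horth : ∀ χ : M → ℂ, D.Sm χ → HasCompactSupport χ →
      ∫ y, g y * ∑ j, D.db (fun y' => a y' * D.dz χ y' (Pi.single j 1)) y (Pi.single j 1) ∂D.μ = 0) :
    ∃ F, D.Hol F ∧ g =ᵐ[D.μ] F := by
  refine Reg.weyl hg fun χ hχ j => ?_
  have key : ∀ t : ℝ, 0 < t →
      ‖∫ y, g y * D.db χ y (Reg.ee j) ∂D.μ‖ ≤ (∫ y, ‖χ y‖ ^ 2 / a y ∂D.μ) / (2 * t) := fun t ht => by
    have h1 := (hlim.const_mul (2 * t)).add_const ((∫ y, ‖χ y‖ ^ 2 / a y ∂D.μ) / (2 * t))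
    rw [mul_zero, zero_add] at h1
    refine ge_of_tendsto h1 ?_
    filter_upwards [hb1 _ hχ.2] with ν hν
    exact Reg.db_bound ha hpos hg (fun χ hχ => horth χ hχ.1 hχ.2) (hb ν).1 (hb ν).2 hχ hν j ht
  have h2 : Tendsto (fun t : ℝ => (∫ y, ‖χ y‖ ^ 2 / a y ∂D.μ) / (2 * t)) atTop (𝓝 0) :=
    tendsto_const_nhds.div_atTop (tendsto_id.const_mul_atTop two_pos)
  exact norm_le_zero_iff.1 (ge_of_tendsto h2 ((eventually_gt_atTop 0).mono key))

end Crest.Agent.R271.Dom
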