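import Crest.Agent.R271.H.Key
import Crest.Agent.R271.H.Wt
import Crest.Agent.R271.H.Proj
import Crest.Agent.R271.H.Lim
import Crest.Agent.R271.H.Reg
import Crest.Agent.R271.H.Mon

/-! # Row 271, block H1: Hoermander's estimate (three weights, test forms only) -/

set_option autoImplicit false
set_option linter.unusedSectionVars false
set_option linter.unusedVariables false

open MeasureTheory Filter Topology Set
open scoped ENNReal ContDiff

noncomputable section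

namespace Crest.Agent.R271

theorem hor_sT : (∃ C, ∀ t, |deriv Real.smoothTransition t| ≤ C) ∧
    ∀ t, 1 < t → deriv Real.smoothTransition t = 0 := by
  have h1 : ∀ t, 1 < t → deriv Real.smoothTransition t = 0 := fun t ht => by
    have : Real.smoothTransition =ᶠ[𝓝 t] fun _ => 1 :=
      (lt_mem_nhds ht).mono fun s hs => Real.smoothTransition.one_of_one_le hs.le
    rw [this.deriv_eq, deriv_const]
  have h0 : ∀ t, t < 0 → deriv Real.smoothTransition t = 0 := fun t ht => by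
    have : Real.smoothTransition =ᶠ[𝓝 t] fun _ => 0 :=
      (gt_mem_nhds ht).mono fun s hs => Real.smoothTransition.zero_of_nonpos hs.le
    rw [this.deriv_eq, deriv_const]
  refine ⟨?_, h1⟩
  obtain ⟨C, hC⟩ := (isCompact_Icc (a := (0 : ℝ)) (b := 1)).exists_bound_of_continuousOn
    ((Real.smoothTransition.contDiff (n := 1)).continuous_deriv le_rfl).continuousOn
  refine ⟨max C 0, fun t => ?_⟩
  by_cases ht : t ∈ Icc (0 : ℝ) 1
  · exact (hC t ht).trans (le_max_left _ _)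
  · rw [mem_Icc, not_and_or, not_le, not_le] at ht
    rw [ht.elim (h0 t) (h1 t), abs_zero]
    exact le_max_right _ _

namespace Dom

variable {n : ℕ} {M : Type} [TopologicalSpace M] [T2Space M] [SecondCountableTopology M]
  [MeasurableSpace M] [BorelSpace M] {D : Dom n M}

theorem norm_dz_real {φ : M → ℝ} {y : M} (h : D.Dif φ y) (ξ : E n) :
    ‖D.dz (fun x => (φ x : ℂ)) y ξ‖ = ‖D.db (fun x => (φ x : ℂ)) y ξ‖ := by
  have h' : D.Dif (fun x => (φ x : ℂ)) y := (h.comp Complex.ofRealCLM.hasFDerivAt).1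
  rw [← Complex.norm_conj, ← db_conj h']
  simp only [Complex.conj_ofReal]

/-- the three weights -/
theorem hor_weights {ρ Φ : M → ℝ} (hρ : D.Psh ρ) (hK : ∀ r, IsCompact {y | ρ y ≤ r}) (hΦ : D.Sm Φ) (c : ℝ)
    {ε : ℝ} (hε : 0 < ε) : ∃ η φ : M → ℝ, D.Sm η ∧ D.Sm φ ∧
      (∀ y ξ, D.levi Φ y ξ + (1 + 1 / ε) * ‖D.dz (fun x => (η x : ℂ)) y ξ‖ ^ 2 ≤ D.levi φ y ξ) ∧
      (∀ y, Φ y ≤ φ y - 2 * η y) ∧ (∀ y, ρ y ≤ c → φ y - 2 * η y = Φ y) ∧
      ∀ y, c + 2 ≤ ρ y → ∑ j, ‖D.db (fun x => (ρ x : ℂ)) y (ee j)‖ ^ 2 ≤ Real.exp (η y) := by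
  obtain ⟨ψ, s, p0, p1, p2, z, b⟩ := exists_weight
    (m := fun y => ∑ j, ‖D.db (fun x => (ρ x : ℂ)) y (ee j)‖ ^ 2)
    (continuous_finsetSum _ fun j _ => (hρ.1.ofReal.db _).continuous.norm.pow 2) hK c
  have sη := hρ.1.comp s
  obtain ⟨K, hK0, hK2⟩ : ∃ K : ℝ, 0 ≤ K ∧ 2 * K = 1 + 1 / ε := ⟨(1 + 1 / ε) / 2, by positivity, by ring⟩
  have sχ : ContDiff ℝ ∞ fun t : ℝ => 2 * t + K * t ^ 2 := by fun_prop
  have d1 : deriv (fun t : ℝ => 2 * t + K * t ^ 2) = fun t => 2 + 2 * K * t := by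
    funext t
    have := (((hasDerivAt_id t).const_mul 2).add ((hasDerivAt_pow 2 t).const_mul K)).deriv
    refine Eq.trans this ?_
    push_cast
    ring
  have d2 : ∀ t, deriv (fun t : ℝ => 2 + 2 * K * t) t = 2 * K := fun t => by
    simp
  refine ⟨fun y => ψ (ρ y), fun y => Φ y + (2 * ψ (ρ y) + K * ψ (ρ y) ^ 2), sη, hΦ.add (sη.comp sχ),
    fun y ξ => ?_, fun y => ?_, fun y hy => ?_, fun y hy => (b y hy).trans ?_⟩
  · rw [levi_add hΦ (sη.comp sχ), levi_comp sη sχ, d1, d2, norm_dz_real (sη.dif y), hK2]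
    have l1 : 0 ≤ D.levi (fun y => ψ (ρ y)) y ξ := by
      rw [levi_comp hρ.1 s]
      exact add_nonneg (mul_nonneg (p1 _) (hρ.2 _ _)) (mul_nonneg (p2 _) (sq_nonneg _))
    have l2 : 0 ≤ 2 + (1 + 1 / ε) * ψ (ρ y) := by have := p0 (ρ y); positivity
    have := mul_nonneg l2 l1
    linarith
  · have := mul_nonneg hK0 (sq_nonneg (ψ (ρ y)))
    linarith
  · simp [z _ hy]
  · linarith [Real.add_one_le_exp (ψ (ρ y))]

/-- the cut-off functions -/
theorem hor_cut {ρ : M → ℝ} (hρ : D.Sm ρ) (hK : ∀ r, IsCompact {y | ρ y ≤ r}) : ∃ (b : ℕ → M → ℝ) (C : ℝ),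
    (∀ ν, D.Sm (b ν) ∧ HasCompactSupport (b ν)) ∧
    (∀ K, IsCompact K → ∀ᶠ ν in atTop, ∀ y ∈ K, b ν y = 1) ∧ 0 ≤ C ∧ ∀ (ν : ℕ) y,
      (∑ j, ‖D.dz (fun y => (b ν y : ℂ)) y (ee j)‖ ^ 2 ≤ C * ∑ j, ‖D.db (fun x => (ρ x : ℂ)) y (ee j)‖ ^ 2) ∧
      (ρ y < ν → ∑ j, ‖D.dz (fun y => (b ν y : ℂ)) y (ee j)‖ ^ 2 = 0) := by
  obtain ⟨⟨C, hC⟩, h1⟩ := hor_sT
  have sT : ∀ ν : ℕ, ContDiff ℝ ∞ fun t : ℝ => Real.smoothTransition (ν + 1 - t) := fun ν =>
    Real.smoothTransition.contDiff.comp (contDiff_const.sub contDiff_id)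
  refine ⟨fun ν y => Real.smoothTransition (ν + 1 - ρ y), C ^ 2, fun ν => ⟨(hρ.comp (sT ν) :), ?_⟩,
    fun K hK' => ?_, sq_nonneg _, fun ν y => ?_⟩
  · refine HasCompactSupport.intro (hK (ν + 1)) fun y hy => Real.smoothTransition.zero_of_nonpos ?_
    have : ¬ ρ y ≤ ν + 1 := hy
    linarith [not_le.1 this]
  · obtain ⟨N, hN⟩ := hK'.exists_bound_of_continuousOn hρ.continuous.continuousOn
    filter_upwards [tendsto_natCast_atTop_atTop.eventually_ge_atTop N] with ν hν y hy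
    refine Real.smoothTransition.one_of_one_le ?_
    linarith [(le_abs_self _).trans (hN y hy)]
  · have d : HasDerivAt (fun t : ℝ => Real.smoothTransition (ν + 1 - t))
        (deriv Real.smoothTransition (ν + 1 - ρ y) * -1) (ρ y) :=
      ((Real.smoothTransition.contDiff (n := 1)).differentiable one_ne_zero _).hasDerivAt.comp (ρ y)
        ((hasDerivAt_id (ρ y)).const_sub _)
    have e : ∀ j, ‖D.dz (fun y => (Real.smoothTransition (ν + 1 - ρ y) : ℂ)) y (ee j)‖ ^ 2 =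
        deriv Real.smoothTransition (ν + 1 - ρ y) ^ 2 * ‖D.db (fun x => (ρ x : ℂ)) y (ee j)‖ ^ 2 := fun j => by
      rw [norm_dz_real ((hρ.comp (sT ν)).dif y), db_comp_real d (hρ.dif y), norm_mul, mul_pow, Complex.norm_real,
        Real.norm_eq_abs, sq_abs]
      ring
    simp only [e, ← Finset.mul_sum]
    refine ⟨mul_le_mul_of_nonneg_right ?_ (by positivity), fun h => ?_⟩
    · exact sq_le_sq' (abs_le.1 (hC _)).1 (abs_le.1 (hC _)).2
    · rw [h1 _ (by linarith)]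
      simp

theorem hor_step {ρ Φ h : M → ℝ} {u : M → ℂ} (hρ : D.Psh ρ) (hK : ∀ r, IsCompact {y | ρ y ≤ r})
    (hΦ : D.Psh Φ) (hu : D.Sm u) (h0 : ∀ y, 0 ≤ h y) (hh : ∀ y ξ, ‖D.db u y ξ‖ ^ 2 ≤ h y * D.levi Φ y ξ)
    (hu2 : Integrable (fun y => ‖u y‖ ^ 2 * Real.exp (-Φ y)) D.μ)
    (hi : Integrable (fun y => h y * Real.exp (-Φ y)) D.μ) (c : ℝ) {ε : ℝ} (hε : 0 < ε) :
    ∃ (F : M → ℂ) (φ : M → ℝ), D.Hol F ∧ Continuous φ ∧ (∀ y, ρ y ≤ c → φ y = Φ y) ∧
      ∫⁻ y, ENNReal.ofReal (‖u y - F y‖ ^ 2 * Real.exp (-φ y)) ∂D.μ ≤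
        ENNReal.ofReal ((1 + ε) * ∫ y, h y * Real.exp (-Φ y) ∂D.μ) := by
  obtain ⟨η, φ, sη, sφ, hL, hle, heq, hη⟩ := hor_weights hρ hK hΦ.1 c hε
  obtain ⟨b, C, b1, b2, C0, b3⟩ := hor_cut hρ.1 hK
  have h₁ : D.Sm fun x => φ x - 2 * η x := sφ.sub ((sm_const (2 : ℝ)).mul sη)
  have h₂ : D.Sm fun x => φ x - η x := sφ.sub sη
  have sq : ∀ t : ℝ, ‖(Real.exp (t / 2) : ℂ)‖ ^ 2 = Real.exp t ∧ ‖(Real.exp (-(t / 2)) : ℂ)‖ ^ 2 = Real.exp (-t) :=
    fun t => by
      simp only [Complex.norm_real, Real.norm_eq_abs, sq_abs, ← Real.exp_nat_mul]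
      constructor <;> congr 1 <;> push_cast <;> ring
  have cu := (hu.mul h₁.half.neg.exp.ofReal).continuous
  have mu : MemLp (fun y => u y * (Real.exp (-((φ y - 2 * η y) / 2)) : ℂ)) 2 D.μ := by
    refine (memLp_two_iff_integrable_sq_norm cu.aestronglyMeasurable).2
      (hu2.mono' (cu.norm.pow 2).aestronglyMeasurable (Eventually.of_forall fun y => ?_))
    rw [Real.norm_of_nonneg (sq_nonneg _), norm_mul, mul_pow, (sq _).2]
    gcongr
    exact hle y
  let S : Submodule ℂ (M → ℂ) :=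
    { carrier := {w | ∃ ψ, D.Sm ψ ∧ HasCompactSupport ψ ∧
        w = D.box (fun x => φ x - 2 * η x) (fun x => φ x - η x) ψ}
      add_mem' := by
        rintro _ _ ⟨ψ, a1, a2, rfl⟩ ⟨ψ', a3, a4, rfl⟩
        exact ⟨_, a1.add a3, a2.add a4, funext fun y => (box_add h₂ a1 a3 y).symm⟩
      zero_mem' := ⟨fun _ => 0, sm_const 0, HasCompactSupport.zero, funext fun y => by simp [box, db, dz]⟩
      smul_mem' := by
        rintro a _ ⟨ψ, a1, a2, rfl⟩
        exact ⟨_, (sm_const a).mul a1, a2.mul_left, funext fun y => (box_smul h₂ a1 a y).symm⟩ }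
  have := D.finCpt
  obtain ⟨g, mg, og, bg⟩ := exists_proj mu S
    (by
      rintro _ ⟨ψ, a1, a2, rfl⟩
      exact (h₁.box h₂ a1).continuous.memLp_of_hasCompactSupport (hcs_box a2))
    (B := (1 + ε) * ∫ y, h y * Real.exp (-Φ y) ∂D.μ)
    (mul_nonneg (by positivity) (integral_nonneg fun y => mul_nonneg (h0 y) (Real.exp_pos _).le))
    (by
      rintro _ ⟨ψ, a1, a2, rfl⟩
      exact box_key hΦ sη sφ hε hL hle hu h0 hh hi a1 a2)
  have ce := h₁.half.exp.ofReal.continuous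
  have mg' : AEStronglyMeasurable (fun y => g y * (Real.exp ((φ y - 2 * η y) / 2) : ℂ)) D.μ :=
    mg.1.mul ce.aestronglyMeasurable
  have ig := (memLp_two_iff_integrable_sq_norm mg.1).1 mg
  obtain ⟨F, hF, eF⟩ := D.hol_of_orth (g := fun y => g y * (Real.exp ((φ y - 2 * η y) / 2) : ℂ))
    h₂.neg.exp (fun y => Real.exp_pos _)
    (fun K hK' => by
      obtain ⟨N, hN⟩ := hK'.exists_bound_of_continuousOn ce.continuousOn
      refine (mg.restrict K).of_le_mul (c := N) mg'.restrict ?_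
      filter_upwards [ae_restrict_mem hK'.measurableSet] with y hy
      rw [norm_mul, mul_comm]
      exact mul_le_mul_of_nonneg_right (hN y hy) (norm_nonneg _))
    b b1 b2
    (by
      have := tendsto_integral_filter_of_dominated_convergence (μ := D.μ) (l := atTop) (f := fun _ => (0 : ℝ))
        (F := fun ν y => Real.exp (-(φ y - η y)) * (∑ j, ‖D.dz (fun y => (b ν y : ℂ)) y (ee j)‖ ^ 2) *
          ‖g y * (Real.exp ((φ y - 2 * η y) / 2) : ℂ)‖ ^ 2) (fun y => C * ‖g y‖ ^ 2)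
        (Eventually.of_forall fun ν => (h₂.neg.exp.continuous.mul (continuous_finsetSum _ fun j _ =>
          ((b1 ν).1.ofReal.dz _).continuous.norm.pow 2)).aestronglyMeasurable.mul (mg'.norm.pow 2))
        ?_ (ig.const_mul C) (Eventually.of_forall fun y => tendsto_const_nhds.congr' ?_)
      · simpa using this
      · filter_upwards [tendsto_natCast_atTop_atTop.eventually_ge_atTop (c + 2)] with ν hν
        refine Eventually.of_forall fun y => ?_
        rw [Real.norm_of_nonneg (by positivity)]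
        rcases lt_or_ge (ρ y) ν with k | k
        · rw [(b3 ν y).2 k, mul_zero, zero_mul]
          positivity
        · have a1 := (b3 ν y).1.trans (mul_le_mul_of_nonneg_left (hη y (hν.trans k)) C0)
          have a2 : Real.exp (-(φ y - η y)) * Real.exp (η y) * Real.exp (φ y - 2 * η y) = 1 := by
            rw [← Real.exp_add, ← Real.exp_add, ← Real.exp_zero]
            congr 1
            ring
          rw [norm_mul, mul_pow, (sq _).1]
          calc _ ≤ Real.exp (-(φ y - η y)) * (C * Real.exp (η y)) * (‖g y‖ ^ 2 * Real.exp (φ y - 2 * η y)) := by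
                gcongr
            _ = C * ‖g y‖ ^ 2 * (Real.exp (-(φ y - η y)) * Real.exp (η y) * Real.exp (φ y - 2 * η y)) := by ring
            _ = _ := by rw [a2, mul_one]
      · filter_upwards [tendsto_natCast_atTop_atTop.eventually_gt_atTop (ρ y)] with ν hν
        rw [(b3 ν y).2 hν, mul_zero, zero_mul])
    (fun χ a1 a2 => by
      have := og _ ⟨_, a1.conj, a2.comp_left (g := starRingEnd ℂ) (map_zero _), rfl⟩
      simp only [conj_box h₂ a1.conj, db_conj (a1.dif _), Complex.conj_conj, ← mul_assoc] at this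
      exact this)
  refine ⟨F, _, hF, h₁.continuous, heq, le_of_eq_of_le (lintegral_congr_ae ?_) bg⟩
  filter_upwards [eF] with y hy
  have e : (Real.exp ((φ y - 2 * η y) / 2) : ℂ) * (Real.exp (-((φ y - 2 * η y) / 2)) : ℂ) = 1 := by
    rw [← Complex.ofReal_mul, ← Real.exp_add]
    simp
  rw [← hy, ← (sq _).2, ← mul_pow, ← norm_mul, sub_mul, mul_assoc, e, mul_one]

end Dom

theorem stHor : AllD fun _ _ _ _ D => StHor D := by
  intro n M _ _ _ _ _ D ρ hρ hK Φ u h hΦ hu hm h0 hh hu2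
  by_cases hI : ∫⁻ y, ENNReal.ofReal (h y * Real.exp (-Φ y)) ∂D.μ = ⊤
  · exact ⟨fun _ => 0, fun y _ => differentiableAt_const _, hI ▸ le_top⟩
  have ce := hΦ.1.neg.exp.continuous
  have p0 : ∀ y, 0 ≤ h y * Real.exp (-Φ y) := fun y => mul_nonneg (h0 y) (Real.exp_pos _).le
  have hi : Integrable (fun y => h y * Real.exp (-Φ y)) D.μ :=
    (lintegral_ofReal_ne_top_iff_integrable (hm.mul ce.measurable).aestronglyMeasurable
      (Eventually.of_forall p0)).1 hI
  have hi2 : Integrable (fun y => ‖u y‖ ^ 2 * Real.exp (-Φ y)) D.μ :=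
    (lintegral_ofReal_ne_top_iff_integrable ((hu.continuous.norm.pow 2).mul ce).aestronglyMeasurable
      (Eventually.of_forall fun y => mul_nonneg (sq_nonneg _) (Real.exp_pos _).le)).1 hu2
  have hρ' : D.Psh ρ := ⟨hρ.1, fun y ξ => by
    rcases eq_or_ne ξ 0 with rfl | k
    · have := Dom.levi_smul hρ.1 y 0 0
      simp only [zero_smul, ne_eq, OfNat.ofNat_ne_zero, not_false_eq_true, zero_pow, zero_mul] at this
      exact this.ge
    · exact (hρ.2 y ξ k).le⟩
  choose F φ h1 h2 h3 h4 using fun ν : ℕ => Dom.hor_step hρ' hK hΦ hu h0 hh hi2 hi ν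
    (ε := 1 / ((ν : ℝ) + 1)) (by positivity)
  rw [← ofReal_integral_eq_lintegral_ofReal hi (Eventually.of_forall p0)]
  exact Dom.hor_limit (stMon n M D) hρ.1.continuous hK hΦ.1.continuous hu.continuous hu2
    (integral_nonneg p0) h1 h2 h3 h4

end Crest.Agent.R271
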