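import Crest.Agent.R271.H.Hor
import Crest.Agent.R271.H.MV
import Crest.Agent.R271.H.Mon

/-! # Row 271, block H.  See `Crest/Agent/R271/Blueprint.lean`, section H. -/

namespace Crest.Agent.R271

theorem hb : HB := ⟨stHor, stMV, stMon⟩

end Crest.Agent.R271
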