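/-!
# Row 271, block H1: precise route for `stHor` (replaces paragraph H3 of the blueprint)

Notation: `𝒟` = smooth compactly supported functions on `M`, `I = ∫ h e^{-Φ}` (finite, else `F = 0`).
No closed operators, no elliptic regularity: two orthogonal projections + Friedrichs + Weyl.

0. **Calc**: `d`, `db`, `levi` in any chart; product, chain, conj rules; `Sm` closed under algebra, `d f · ξ` is `Sm`;
   symmetry of second derivatives; smooth bumps supported in chart balls.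
1. **IBP**: `f ∈ 𝒟` (vector valued) `→ ∫ d f y ξ dμ = 0`.  (finite partition `θ_i = β_i ∏_{l<i} (1 - β_l)` of a compact set.)
   `μ` is finite on compacts and positive on opens.
2. **Bochner** for `γ ∈ 𝒟^n` and smooth real `Ψ`: `T*γ = ∑_j (-∂_j γ_j + (∂_j Ψ) γ_j)`, `(Sγ)_{jl} = ∂̄_j γ_l - ∂̄_l γ_j`:
   `∫ levi Ψ γ e^{-Ψ} ≤ ∫ |T*γ|² e^{-Ψ} + (1/2) ∑_{j,l} ∫ |(Sγ)_{jl}|² e^{-Ψ}`, and `∫ ψ conj (T*γ) e^{-Ψ} = ∫ db ψ γ e^{-Ψ}`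
   for smooth `ψ` (`db ψ y (γ y) = ∑ ∂̄_j ψ conj γ_j`).
3. **Friedrichs in `E n`**: `V, W` finite dimensional, `P : (E n →L[ℝ] V) →L[ℝ] W`.  Say `WD P f k` if for all real test `ψ`,
   `∫ P ((dψ).smulRight (f x)) = -∫ ψ • k`.  For `f, k ∈ L²` with compact support: `f * φ_ε` is smooth,
   `P (d (f * φ_ε)) = k * φ_ε` pointwise, and `f * φ_ε → f` in `L²` (Young by Cauchy-Schwarz + density of `C_c`).
   **On `M`**: `γ, k ∈ L²(μ)` compactly supported, `WD P γ k` → there are `γ_ε ∈ 𝒟` with supports in one compact set,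
   `γ_ε → γ`, `P (d γ_ε) → k` in `L²(μ)` (partition `θ_i`; `WD P (θ γ) (θ k + P (dθ ⊗ γ))`).  Hence **Bochner holds for such `γ`**
   with `P = (∑ ∂_j γ_j, (Sγ)_{jl})`.
4. **Weyl**: `g ∈ L²_loc`, `WD db g 0` → `g = F` a.e. with `F` holomorphic (in a chart the mollifications of `θ g` are
   holomorphic where `θ = 1` and Cauchy in `L²`, so locally uniformly Cauchy by `stMV`; local representatives agree).
5. **Weights** for a level `s`: `η = b(ρ - s) log (1 + ‖dρ‖²-type sum ∑_j |∂̄_j ρ|²)`, `b = smoothTransition`, `a = e^{-η}` (so `a = 1` on `ρ ≤ s`,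
   `a |∂̄ρ|² ≤ 1` on `ρ ≥ s + 1`); `χ` smooth, convex, `≥ 0`, `= 0` on `(-∞, s-1]` with `χ'(ρ y) levi ρ y ξ ≥ 4 |∂̄η y|² |ξ|₂²`
   (`χ' = ∑_k c_k smoothTransition (r - (s-1) - k)`, locally finite); `Ψ = Φ + χ ∘ ρ`, `levi Ψ ≥ levi Φ + χ'(ρ) levi ρ`.
6. **Key inequality**: for `α ∈ 𝒟^n`, `|⟨u, T*α⟩_Ψ| ≤ √I ‖T*α‖_Ψ`.  In `H₂ = L²(a e^{-Ψ}; ℂⁿ)` project `α / a = α₁ + α₂`, `α₁ ∈ closure ∂̄𝒟`,
   `α₂ ⊥ ∂̄𝒟`.  Put `γ = a α₁`.  Then `∫ db ψ γ e^{-Ψ} = ⟨ψ, T*α⟩` for `ψ ∈ 𝒟` (weak `T*γ = T*α`) and `S α₁ = 0` weakly, so `Sγ = -∂̄η ∧ γ`.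
   With `β_ν = β(ρ - ν)` (`1` on `ρ ≤ ν`, `0` on `ρ ≥ ν+1`): `⟨β_ν u, T*α⟩ = ∫ (db u (β_ν γ) + u db β_ν γ) e^{-Ψ}`; the second term tends to `0`
   (`|db β_ν γ| ≤ C √a |α₁| 1_{ρ ≥ ν}`), the first is at most `√I (∫ levi Φ (β_ν γ) e^{-Ψ})^{1/2}`; step 3 for `β_ν γ`:
   `T*(βγ) = β T*α - ∑ ∂_jβ γ_j`, `S(βγ) = ∂̄β ∧ γ - ∂̄η ∧ βγ`, the `∂̄η` term is absorbed by `χ'(ρ) levi ρ`; let `ν → ∞`.
7. In `H₁ = L²(e^{-Ψ})` project `u = v + g`, `v ∈ closure T*𝒟^n`: `‖v‖ ≤ √I` by 6, `g ⊥ T*𝒟^n` is `WD db g 0`; step 4 gives `F_s` with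
   `∫ |u - F_s|² e^{-Φ - χ_s(ρ)} ≤ I`.
8. `s → ∞`: `stMon`, Fatou (`χ_s(ρ y) = 0` eventually).
-/
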