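import Crest.Agent.R271.H.RegLoc

/-! # Row 271, block H (regularity): the global Caccioppoli inequality -/

set_option autoImplicit false
set_option linter.unusedSectionVars false

open MeasureTheory Filter Topology Set Metric
open scoped ENNReal ContDiff

noncomputable section

namespace Crest.Agent.R271.Reg

variable {n : ℕ} {M : Type} [TopologicalSpace M] [T2Space M] [SecondCountableTopology M]
  [MeasurableSpace M] [BorelSpace M] {D : Dom n M}

variable {g : M → ℂ} {a : M → ℝ} {K : Set M} {v : ℕ → M → ℂ} {G : Fin n → M → ℂ}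

/-- `G j` is the weak derivative: `ibp_db` for `v k` and `L2.integral_mul` -/
theorem weak_db (hK : IsCompact K) (hv : ∀ k, D.Sm (v k)) (h : L2 (D.μ.restrict K) v g) {j : Fin n}
    (hG : L2 (D.μ.restrict K) (fun k y => D.db (v k) y (ee j)) (G j)) {ψ : M → ℂ} (hψ : Tst D ψ)
    (hs : ∀ y ∉ K, ψ y = 0 ∧ D.db ψ y (ee j) = 0) :
    ∫ y, g y * D.db ψ y (ee j) ∂D.μ = -∫ y in K, G j y * ψ y ∂D.μ := by
  have h1 := h.integral_mul (L2.const (memLp_cont (D := D) (hψ.db (ee j)).1.continuous hK))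
  have h2 := (hG.integral_mul (L2.const (memLp_cont (D := D) hψ.1.continuous hK))).neg
  rw [← setIntegral_eq_integral_of_forall_compl_eq_zero (s := K) fun y hy => by rw [(hs y hy).2, mul_zero]]
  refine tendsto_nhds_unique h1 (h2.congr fun k => ?_)
  rw [setIntegral_eq_integral_of_forall_compl_eq_zero fun y hy => by rw [(hs y hy).1, mul_zero],
    setIntegral_eq_integral_of_forall_compl_eq_zero fun y hy => by rw [(hs y hy).2, mul_zero],
    ibp_db (hv k) hψ]

theorem cacc_gl_supp (β : M → ℝ) : tsupport (fun x => (β x : ℂ)) ⊆ tsupport β :=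
  closure_mono fun y hy k => hy (by simp [k])

theorem cacc_gl_pt (G g b : ℂ) {a : ℝ} (β : ℝ) (ha : 0 ≤ a) :
    a * β ^ 2 * ‖G‖ ^ 2 / 2 - 2 * (a * ‖b‖ ^ 2 * ‖g‖ ^ 2) ≤
      (G * (a * ((β : ℂ) * β) * (starRingEnd ℂ) G + a * (2 * β * b) * (starRingEnd ℂ) g)).re := by
  have e : G * (a * ((β : ℂ) * β) * (starRingEnd ℂ) G + a * (2 * β * b) * (starRingEnd ℂ) g) =
      ((a * β ^ 2 * ‖G‖ ^ 2 : ℝ) : ℂ) + (a : ℂ) * (2 * (β * G) * (b * (starRingEnd ℂ) g)) := by
    push_cast
    rw [← Complex.mul_conj']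
    ring
  have h1 := (abs_le.1 (Complex.abs_re_le_norm (2 * (β * G) * (b * (starRingEnd ℂ) g)))).1
  simp only [norm_mul, Complex.norm_conj, Complex.norm_real, Real.norm_eq_abs, Complex.norm_ofNat] at h1
  rw [e, Complex.add_re, Complex.ofReal_re, Complex.re_ofReal_mul, ← sq_abs β]
  nlinarith [mul_le_mul_of_nonneg_left h1 ha, mul_nonneg ha (sq_nonneg (|β| * ‖G‖ - 2 * (‖b‖ * ‖g‖)))]

theorem cacc_gl_test (ha : D.Sm a) (hg : Loc2 D g)
    (horth : ∀ χ, Tst D χ →
      ∫ y, g y * ∑ j, D.db (fun y' => a y' * D.dz χ y' (ee j)) y (ee j) ∂D.μ = 0)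
    (hK : IsCompact K) (hv : ∀ k, D.Sm (v k)) (h : L2 (D.μ.restrict K) v g)
    (hG : ∀ j, L2 (D.μ.restrict K) (fun k y => D.db (v k) y (ee j)) (G j)) {χ : M → ℂ} (hχ : Tst D χ)
    (hs : tsupport χ ⊆ K) : ∑ j, ∫ y in K, G j y * (a y * D.dz χ y (ee j)) ∂D.μ = 0 := by
  have hψ : ∀ j, Tst D fun y => a y * D.dz χ y (ee j) := fun j => (hχ.dz _).mul ha.ofReal
  have h1 := horth χ hχ
  simp only [Finset.mul_sum] at h1
  rw [integral_finsetSum _ fun j _ => hg.int_mul ((hψ j).db _).1.continuous ((hψ j).db _).2] at h1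
  rw [← neg_eq_zero, ← Finset.sum_neg_distrib, ← h1]
  refine Finset.sum_congr rfl fun j _ => (weak_db hK hv h (hG j) (hψ j) fun y hy => ?_).symm
  have k : tsupport (fun y => a y * D.dz χ y (ee j)) ⊆ K :=
    closure_minimal (fun x hx => hs (by by_contra k; exact hx (by simp [dz_zero k]))) hK.isClosed
  exact ⟨image_eq_zero_of_notMem_tsupport (f := fun y => a y * D.dz χ y (ee j)) fun k' => hy (k k'),
    db_zero (fun k' => hy (k k')) _⟩

/-- `weak_db` with `ψ = a dz χ (ee j)` gives `∑ ∫_K G j a dz χ (ee j) = 0` for tests `χ` supported in `K`; take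
`χ = β² conj (v l)`, `l → ∞`: `∑ ∫_K G j a (2 β b j conj g + β² conj (G j)) = 0`; Young. -/
theorem cacc_gl (ha : D.Sm a) (hpos : ∀ y, 0 < a y) (hg : Loc2 D g)
    (horth : ∀ χ, Tst D χ →
      ∫ y, g y * ∑ j, D.db (fun y' => a y' * D.dz χ y' (ee j)) y (ee j) ∂D.μ = 0)
    (hK : IsCompact K) (hv : ∀ k, D.Sm (v k)) (h : L2 (D.μ.restrict K) v g)
    (hG : ∀ j, L2 (D.μ.restrict K) (fun k y => D.db (v k) y (ee j)) (G j)) {β : M → ℝ} (hβ : D.Sm β)
    (hs : tsupport β ⊆ K) :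
    ∫ y in K, a y * β y ^ 2 * ∑ j, ‖G j y‖ ^ 2 ∂D.μ ≤
      4 * ∫ y, a y * (∑ j, ‖D.dz (fun x => (β x : ℂ)) y (ee j)‖ ^ 2) * ‖g y‖ ^ 2 ∂D.μ := by
  have hm := hK.measurableSet
  have hb := hβ.ofReal
  have hbz := fun j => hb.dz (ee j)
  have hT : ∀ l, Tst D fun y => (β y : ℂ) * β y * (starRingEnd ℂ) (v l y) := fun l =>
    ⟨(hb.mul hb).mul (hv l).conj, HasCompactSupport.intro hK fun y hy => by
      simp [image_eq_zero_of_notMem_tsupport fun k => hy (hs k)]⟩
  have hS : ∀ l, tsupport (fun y => (β y : ℂ) * β y * (starRingEnd ℂ) (v l y)) ⊆ K := fun l =>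
    closure_minimal (fun y hy => hs (subset_tsupport _ fun k => hy (by simp [k]))) hK.isClosed
  have hH : ∀ j, L2 (D.μ.restrict K)
      (fun l y => a y * ((β y : ℂ) * β y) * (starRingEnd ℂ) (D.db (v l) y (ee j)) +
        a y * (2 * β y * D.dz (fun x => (β x : ℂ)) y (ee j)) * (starRingEnd ℂ) (v l y))
      fun y => a y * ((β y : ℂ) * β y) * (starRingEnd ℂ) (G j y) +
        a y * (2 * β y * D.dz (fun x => (β x : ℂ)) y (ee j)) * (starRingEnd ℂ) (g y) := fun j => by
    have c1 := (ha.ofReal.mul (hb.mul hb)).continuous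
    have c2 := (ha.ofReal.mul (((Dom.sm_const (2 : ℂ)).mul hb).mul (hbz j))).continuous
    obtain ⟨C1, h1⟩ := bdd_cont (D := D) c1 hK hm Subset.rfl
    obtain ⟨C2, h2⟩ := bdd_cont (D := D) c2 hK hm Subset.rfl
    exact ((hG j).conj.bdd_mul c1.aestronglyMeasurable h1).add (h.conj.bdd_mul c2.aestronglyMeasurable h2)
  have h0 := tendsto_nhds_unique (tendsto_finsetSum Finset.univ fun j _ =>
    (L2.const (hG j).lim).integral_mul (hH j)) (tendsto_const_nhds (x := 0) |>.congr fun l => by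
      rw [← cacc_gl_test ha hg horth hK hv h hG (hT l) (hS l)]
      refine Finset.sum_congr rfl fun j _ => integral_congr_ae (.of_forall fun y => ?_)
      simp only [Dom.dz_mul ((hb.mul hb).dif y) ((hv l).conj.dif y), Dom.dz_mul (hb.dif y) (hb.dif y),
        Dom.dz_conj ((hv l).dif y)]
      ring)
  have i0 := fun j => int_mul (hG j).lim (hH j).lim
  rw [← integral_finsetSum _ fun j _ => i0 j] at h0
  have i1 := integrable_finsetSum Finset.univ fun j _ => i0 j
  have h1 := integral_re i1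
  rw [h0, map_zero] at h1
  have i2 : IntegrableOn (fun y => a y * β y ^ 2 * ∑ j, ‖G j y‖ ^ 2) K D.μ :=
    IntegrableOn.continuousOn_mul (ha.continuous.mul (hβ.continuous.pow 2)).continuousOn
      (integrable_finsetSum _ fun j _ => int_sq (hG j).lim) hK
  have i3 : IntegrableOn
      (fun y => a y * (∑ j, ‖D.dz (fun x => (β x : ℂ)) y (ee j)‖ ^ 2) * ‖g y‖ ^ 2) K D.μ :=
    IntegrableOn.continuousOn_mul (ha.continuous.mul
      (continuous_finsetSum _ fun j _ => (hbz j).continuous.norm.pow 2)).continuousOn (int_sq h.lim) hK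
  have h2 := integral_mono ((i2.div_const 2).sub (i3.const_mul 2)) i1.re fun y => by
    have := Finset.sum_le_sum fun j (_ : j ∈ Finset.univ) => cacc_gl_pt (G j y) (g y)
      (D.dz (fun x => (β x : ℂ)) y (ee j)) (β y) (hpos y).le
    simpa only [Finset.sum_sub_distrib, ← Finset.mul_sum, ← Finset.sum_div, ← Finset.sum_mul, Pi.sub_apply,
      RCLike.re_to_complex, Complex.re_sum] using this
  simp only [Pi.sub_apply] at h2
  rw [h1, integral_sub (i2.div_const 2) (i3.const_mul 2), integral_div, integral_const_mul,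
    setIntegral_eq_integral_of_forall_compl_eq_zero (s := K)
      (f := fun y => a y * (∑ j, ‖D.dz (fun x => (β x : ℂ)) y (ee j)‖ ^ 2) * ‖g y‖ ^ 2) fun y hy => by
        have : y ∉ tsupport fun x => (β x : ℂ) := fun k => hy (hs (cacc_gl_supp β k))
        simp [dz_zero this]] at h2
  linarith

/-- `weak_db`, `cacc_gl` on `K = tsupport β ∪ tsupport χ`, and `|G χ| ≤ (t/2) a β² |G|² + |χ|²/(2 t a)` -/
theorem db_bound (ha : D.Sm a) (hpos : ∀ y, 0 < a y) (hg : Loc2 D g)
    (horth : ∀ χ, Tst D χ →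
      ∫ y, g y * ∑ j, D.db (fun y' => a y' * D.dz χ y' (ee j)) y (ee j) ∂D.μ = 0)
    {β : M → ℝ} (hβ : D.Sm β) (hc : HasCompactSupport β) {χ : M → ℂ} (hχ : Tst D χ)
    (h1 : ∀ y ∈ tsupport χ, β y = 1) (j : Fin n) {t : ℝ} (ht : 0 < t) :
    ‖∫ y, g y * D.db χ y (ee j) ∂D.μ‖ ≤
      2 * t * ∫ y, a y * (∑ j, ‖D.dz (fun x => (β x : ℂ)) y (ee j)‖ ^ 2) * ‖g y‖ ^ 2 ∂D.μ +
        (∫ y, ‖χ y‖ ^ 2 / a y ∂D.μ) / (2 * t) := by
  obtain ⟨v, G, hv, h, hG⟩ := app_cpt (loc_app ha hpos hg horth) hc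
  have hs : tsupport χ ⊆ tsupport β := fun y hy => subset_tsupport _ (by simp [h1 y hy])
  have h2 := cacc_gl ha hpos hg horth hc hv h hG hβ Subset.rfl
  have i2 : IntegrableOn (fun y => a y * β y ^ 2 * ∑ j, ‖G j y‖ ^ 2) (tsupport β) D.μ :=
    IntegrableOn.continuousOn_mul (ha.continuous.mul (hβ.continuous.pow 2)).continuousOn
      (integrable_finsetSum _ fun j _ => int_sq (hG j).lim) hc
  have i3 : Integrable (fun y => ‖χ y‖ ^ 2 / a y) D.μ :=
    Dom.integrable_of_cont ((hχ.1.continuous.norm.pow 2).div ha.continuous fun y => (hpos y).ne')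
      (HasCompactSupport.intro hχ.2 fun y hy => by simp [image_eq_zero_of_notMem_tsupport hy])
  rw [weak_db hc hv h (hG j) hχ fun y hy =>
    ⟨image_eq_zero_of_notMem_tsupport fun k => hy (hs k), db_zero (fun k => hy (hs k)) _⟩, norm_neg]
  have h3 := norm_integral_le_of_norm_le ((i2.const_mul (t / 2)).add (i3.integrableOn.div_const (2 * t)))
    (f := fun y => G j y * χ y) (.of_forall fun y => by
      have k0 := hpos y
      have k1 : ‖G j y‖ ^ 2 ≤ ∑ j, ‖G j y‖ ^ 2 :=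
        Finset.single_le_sum (f := fun j => ‖G j y‖ ^ 2) (fun _ _ => sq_nonneg _) (Finset.mem_univ j)
      simp only [Pi.add_apply]
      by_cases k : χ y = 0
      · rw [k, mul_zero, norm_zero]
        have := (sq_nonneg _).trans k1
        positivity
      · rw [h1 y (subset_tsupport _ k), norm_mul]
        have k2 : ‖G j y‖ * ‖χ y‖ ≤ t / 2 * (a y * ‖G j y‖ ^ 2) + ‖χ y‖ ^ 2 / a y / (2 * t) := by
          rw [← sub_nonneg, show t / 2 * (a y * ‖G j y‖ ^ 2) + ‖χ y‖ ^ 2 / a y / (2 * t) - ‖G j y‖ * ‖χ y‖ =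
            (t * a y * ‖G j y‖ - ‖χ y‖) ^ 2 / (2 * t * a y) by field_simp; ring]
          positivity
        refine k2.trans (add_le_add_left ?_ _)
        rw [one_pow, mul_one]
        gcongr)
  simp only [Pi.add_apply] at h3
  rw [integral_add (i2.const_mul _) (i3.integrableOn.div_const _), integral_const_mul, integral_div,
    setIntegral_eq_integral_of_forall_compl_eq_zero (f := fun y => ‖χ y‖ ^ 2 / a y) fun y hy => by
      simp [image_eq_zero_of_notMem_tsupport fun k => hy (hs k)]] at h3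
  nlinarith

end Crest.Agent.R271.Reg
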