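import Crest.Agent.R271.H.RegMol

/-! # Row 271, block H (regularity): `H¹` approximation -/

set_option autoImplicit false
set_option linter.unusedSectionVars false

open MeasureTheory Filter Topology Set Metric
open scoped ENNReal ContDiff

noncomputable section

namespace Crest.Agent.R271.Reg

variable {n : ℕ} {M : Type} [TopologicalSpace M] [T2Space M] [SecondCountableTopology M]
  [MeasurableSpace M] [BorelSpace M] {D : Dom n M}

theorem cacc_sm_dz_sub {f g : M → ℂ} {y : M} (h : D.Dif f y) (h' : D.Dif g y) (ξ : E n) :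
    D.dz (fun x => f x - g x) y ξ = D.dz f y ξ - D.dz g y ξ := by
  simp only [Dom.dz, Dom.d_sub h h', sub_apply]
  ring

theorem cacc_sm_supp (β : M → ℝ) : tsupport (fun x => (β x : ℂ)) ⊆ tsupport β :=
  closure_mono fun y hy k => hy (by simp [k])

theorem cacc_sm_pt (V F v b : ℂ) (β : ℝ) :
    β ^ 2 * ‖V‖ ^ 2 / 2 - 2 * (β ^ 2 * ‖F‖ ^ 2) - 5 * (‖b‖ ^ 2 * ‖v‖ ^ 2) ≤
      ((V - F) * ((β : ℂ) * β * (starRingEnd ℂ) V + (β * b + b * β) * (starRingEnd ℂ) v)).re := by
  have e : (V - F) * ((β : ℂ) * β * (starRingEnd ℂ) V + (β * b + b * β) * (starRingEnd ℂ) v) =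
      ((β ^ 2 * ‖V‖ ^ 2 : ℝ) : ℂ) + 2 * (β * V) * (b * (starRingEnd ℂ) v) - β * F * (β * (starRingEnd ℂ) V) -
        2 * (β * F) * (b * (starRingEnd ℂ) v) := by
    push_cast
    rw [← Complex.mul_conj']
    ring
  have h1 := (abs_le.1 (Complex.abs_re_le_norm (2 * (β * V) * (b * (starRingEnd ℂ) v)))).1
  have h2 := (abs_le.1 (Complex.abs_re_le_norm (β * F * (β * (starRingEnd ℂ) V)))).2
  have h3 := (abs_le.1 (Complex.abs_re_le_norm (2 * (β * F) * (b * (starRingEnd ℂ) v)))).2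
  simp only [norm_mul, Complex.norm_conj, Complex.norm_real, Real.norm_eq_abs, Complex.norm_ofNat] at h1 h2 h3
  rw [e, Complex.sub_re, Complex.sub_re, Complex.add_re, Complex.ofReal_re, ← sq_abs β]
  nlinarith [sq_nonneg (|β| * ‖V‖ / 2 - 2 * (‖b‖ * ‖v‖)), sq_nonneg (|β| * ‖V‖ / 2 - |β| * ‖F‖),
    sq_nonneg (|β| * ‖F‖ - ‖b‖ * ‖v‖)]

/-- Caccioppoli inequality for smooth functions.  Test with `ψ = β² conj v` (`ibp_dz`, `db_dz_comm`, `Dom.dz_conj`):
with `V j = db v (ee j)`, `b j = dz β (ee j)`, `dz ψ (ee j) = 2 β b j conj v + β² conj (V j)`, so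
`∫ ∑ (V j - F j) (2 β b j conj v + β² conj (V j)) = 0`.  Take real parts and use
`|F β² V| ≤ β²|V|²/4 + β²|F|²`, `2|F β b v| ≤ β²|F|² + |b|²|v|²`, `2|V β b v| ≤ β²|V|²/4 + 4|b|²|v|²`. -/
theorem cacc_sm {v : M → ℂ} {F : Fin n → M → ℂ} {β : M → ℝ} (hv : D.Sm v) (hF : ∀ j, D.Sm (F j))
    (hβ : D.Sm β) (hc : HasCompactSupport β)
    (h : ∀ y ∈ tsupport β, ∑ j, D.db (fun x => D.dz v x (ee j)) y (ee j) = ∑ j, D.dz (F j) y (ee j)) :
    ∫ y, β y ^ 2 * ∑ j, ‖D.db v y (ee j)‖ ^ 2 ∂D.μ ≤ 4 * ∫ y, β y ^ 2 * ∑ j, ‖F j y‖ ^ 2 ∂D.μ +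
      10 * ∫ y, (∑ j, ‖D.dz (fun x => (β x : ℂ)) y (ee j)‖ ^ 2) * ‖v y‖ ^ 2 ∂D.μ := by
  have hb := hβ.ofReal
  have hbz := fun j => hb.dz (ee j)
  have hV := fun j => hv.db (ee j)
  have z0 : ∀ y ∉ tsupport β, β y = 0 := fun y hy => image_eq_zero_of_notMem_tsupport hy
  have z1 : ∀ y ∉ tsupport β, ∀ j, D.dz (fun x => (β x : ℂ)) y (ee j) = 0 := fun y hy j =>
    dz_zero (fun k => hy (cacc_sm_supp β k)) _
  have hT : Tst D fun y => (β y : ℂ) * β y * (starRingEnd ℂ) (v y) :=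
    ⟨(hb.mul hb).mul hv.conj, HasCompactSupport.intro hc fun y hy => by simp [z0 y hy]⟩
  have i0 := fun j => Dom.integrable_of_cont (D := D) ((hT.dz (ee j)).mul ((hV j).sub (hF j))).1.continuous
    ((hT.dz (ee j)).mul ((hV j).sub (hF j))).2
  have i0' := fun j => Dom.integrable_of_cont (D := D) (hT.mul (((hV j).sub (hF j)).dz (ee j))).1.continuous
    (hT.mul (((hV j).sub (hF j)).dz (ee j))).2
  have h0 : ∫ y, ∑ j, (D.db v y (ee j) - F j y) *
      D.dz (fun y => (β y : ℂ) * β y * (starRingEnd ℂ) (v y)) y (ee j) ∂D.μ = 0 := by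
    rw [integral_finsetSum _ fun j _ => i0 j]
    simp only [fun j => ibp_dz ((hV j).sub (hF j)) hT (ee j)]
    rw [Finset.sum_neg_distrib, ← integral_finsetSum _ fun j _ => i0' j, neg_eq_zero]
    refine integral_eq_zero_of_ae (.of_forall fun y => ?_)
    by_cases hy : y ∈ tsupport β
    · simp only [← Finset.sum_mul, cacc_sm_dz_sub ((hV _).dif y) ((hF _).dif y), Finset.sum_sub_distrib,
        ← db_dz_comm hv, h y hy, sub_self, zero_mul, Pi.zero_apply]
    · simp [z0 y hy]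
  have i1 := integrable_finsetSum Finset.univ fun j _ => i0 j
  have h1 := integral_re i1
  rw [h0, map_zero] at h1
  have i2 : Integrable (fun y => β y ^ 2 * ∑ j, ‖D.db v y (ee j)‖ ^ 2) D.μ :=
    Dom.integrable_of_cont ((hβ.continuous.pow 2).mul
      (continuous_finsetSum _ fun j _ => (hV j).continuous.norm.pow 2))
      (HasCompactSupport.intro hc fun y hy => by simp [z0 y hy])
  have i3 : Integrable (fun y => β y ^ 2 * ∑ j, ‖F j y‖ ^ 2) D.μ :=
    Dom.integrable_of_cont ((hβ.continuous.pow 2).mul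
      (continuous_finsetSum _ fun j _ => (hF j).continuous.norm.pow 2))
      (HasCompactSupport.intro hc fun y hy => by simp [z0 y hy])
  have i4 : Integrable (fun y => (∑ j, ‖D.dz (fun x => (β x : ℂ)) y (ee j)‖ ^ 2) * ‖v y‖ ^ 2) D.μ :=
    Dom.integrable_of_cont ((continuous_finsetSum _ fun j _ => (hbz j).continuous.norm.pow 2).mul
      (hv.continuous.norm.pow 2)) (HasCompactSupport.intro hc fun y hy => by simp [z1 y hy])
  have i5 := (i2.div_const 2).sub (i3.const_mul 2)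
  have h2 := integral_mono (i5.sub (i4.const_mul 5)) i1.re fun y => by
    have := Finset.sum_le_sum fun j (_ : j ∈ Finset.univ) => cacc_sm_pt (D.db v y (ee j)) (F j y) (v y)
      (D.dz (fun x => (β x : ℂ)) y (ee j)) (β y)
    simpa only [Finset.sum_sub_distrib, ← Finset.mul_sum, ← Finset.sum_div, ← Finset.sum_mul, Pi.sub_apply,
      RCLike.re_to_complex, Complex.re_sum, Dom.dz_mul ((hb.mul hb).dif y) (hv.conj.dif y),
      Dom.dz_mul (hb.dif y) (hb.dif y), Dom.dz_conj (hv.dif y)] using this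
  rw [h1, integral_sub' i5 (i4.const_mul 5), integral_sub' (i2.div_const 2) (i3.const_mul 2), integral_div,
    integral_const_mul, integral_const_mul] at h2
  linarith

variable (D) in
/-- `g` is an `L²(ν)` limit of smooth functions whose `∂̄` converge in `L²(ν)` -/
def App (ν : Measure M) (g : M → ℂ) : Prop := ∃ (v : ℕ → M → ℂ) (G : Fin n → M → ℂ),
  (∀ k, D.Sm (v k)) ∧ L2 ν v g ∧ ∀ j, L2 ν (fun k y => D.db (v k) y (ee j)) (G j)

/-- Mollify (`exists_mol`): `v k = T k w` solves `∑ db dz (v k) = ∑ dz (T k (f j))` on `V`; take a bump `β` supported in `V`,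
equal to `1` on an open `U' ∋ y₀`; `cacc_sm` for `v k - v l` and `L2.cauchy` show that `db (v k)` is Cauchy in
`L²(U')` (`L2.of_cauchy`). -/
theorem loc_app0 {w : M → ℂ} {f : Fin n → M → ℂ} (hw : Loc2 D w) (hf : ∀ j, Loc2 D (f j))
    (h : ∀ χ, Tst D χ → ∑ j, ∫ y, w y * D.db (fun x => D.dz χ x (ee j)) y (ee j) ∂D.μ =
      -∑ j, ∫ y, f j y * D.dz χ y (ee j) ∂D.μ) (y₀ : M) :
    ∃ U, IsOpen U ∧ y₀ ∈ U ∧ (∃ K, IsCompact K ∧ U ⊆ K) ∧ App D (D.μ.restrict U) w := by
  obtain ⟨U, V, hU, hV, hy, hVU, ⟨K, hK, hUK⟩, T, χ, hT, hχ⟩ := exists_mol D y₀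
  have hm : ∀ {g : M → ℂ}, Loc2 D g → MemLp g 2 (D.μ.restrict U) := fun hg =>
    (hg K hK).mono_measure (Measure.restrict_mono hUK le_rfl)
  obtain ⟨β, hβ, hc, hs, h1⟩ := exists_bump D (hV.mem_nhds hy)
  obtain ⟨U', hU', ho, hy'⟩ := mem_nhds_iff.1 (h1.and (hV.mem_nhds hy))
  have hle : D.μ.restrict U' ≤ D.μ.restrict U := Measure.restrict_mono (fun x hx => hVU (hU' hx).2) le_rfl
  obtain ⟨hv, hL⟩ := hT w (hm hw)
  have hF := fun j => hT (f j) (hm (hf j))
  have eq : ∀ k, ∀ y ∈ V, ∑ j, D.db (fun x => D.dz (T k w) x (ee j)) y (ee j) =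
      ∑ j, D.dz (T k (f j)) y (ee j) := fun k y hy => by
    obtain ⟨h1, h2⟩ := hχ k y hy
    simp only [fun j => (h2 w (hm hw) (ee j) (ee j)).2.2, fun j => (h2 (f j) (hm (hf j)) (ee j) (ee j)).2.1,
      h _ h1, Finset.sum_neg_distrib]
  have c1 : Continuous fun y => β y ^ 2 := hβ.continuous.pow 2
  have c2 : Continuous fun y => ∑ j, ‖D.dz (fun x => (β x : ℂ)) y (ee j)‖ ^ 2 :=
    continuous_finsetSum _ fun j _ => (hβ.ofReal.dz _).continuous.norm.pow 2
  obtain ⟨C1, b1⟩ := hK.bddAbove_image c1.continuousOn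
  obtain ⟨C2, b2⟩ := hK.bddAbove_image c2.continuousOn
  have p1 : 0 ≤ C1 := (sq_nonneg _).trans (b1 ⟨y₀, hUK (hVU hy), rfl⟩)
  have p2 : 0 ≤ C2 := (Finset.sum_nonneg fun _ _ => sq_nonneg _).trans (b2 ⟨y₀, hUK (hVU hy), rfl⟩)
  have z0 : ∀ y ∉ U, β y = 0 := fun y hy => image_eq_zero_of_notMem_tsupport fun k => hy (hVU (hs k))
  have z1 : ∀ y ∉ U, ∀ j, D.dz (fun x => (β x : ℂ)) y (ee j) = 0 := fun y hy j =>
    dz_zero (fun k => hy (hVU (hs (cacc_sm_supp β k)))) _
  have key : ∀ j, ∃ G, L2 (D.μ.restrict U') (fun k y => D.db (T k w) y (ee j)) G := fun j => by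
    refine L2.of_cauchy (fun k => (memLp_cont ((hv k).db _).continuous hK).mono_measure
      (hle.trans (Measure.restrict_mono hUK le_rfl)))
      (ε := fun k => 8 * C1 * ∑ j, ∫ y in U, ‖T k (f j) y - f j y‖ ^ 2 ∂D.μ +
        20 * C2 * ∫ y in U, ‖T k w y - w y‖ ^ 2 ∂D.μ) ?_ fun k l => ?_
    · simpa using ((tendsto_finsetSum Finset.univ fun j _ => (hF j).2.tend).const_mul (8 * C1)).add
        (hL.tend.const_mul (20 * C2))
    have hd : ∀ y ξ, D.dz (fun x => T k w x - T l w x) y ξ = D.dz (T k w) y ξ - D.dz (T l w) y ξ :=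
      fun y ξ => cacc_sm_dz_sub ((hv k).dif y) ((hv l).dif y) ξ
    have h2 := cacc_sm ((hv k).sub (hv l)) (fun j => ((hF j).1 k).sub ((hF j).1 l)) hβ hc fun y hy => by
      simp only [hd, Dom.db_sub (((hv k).dz _).dif y) (((hv l).dz _).dif y),
        cacc_sm_dz_sub (((hF _).1 k).dif y) (((hF _).1 l).dif y), Finset.sum_sub_distrib, eq _ y (hs hy)]
    have h3 : ∫ y in U', ‖D.db (T k w) y (ee j) - D.db (T l w) y (ee j)‖ ^ 2 ∂D.μ ≤
        ∫ y, β y ^ 2 * ∑ j, ‖D.db (fun x => T k w x - T l w x) y (ee j)‖ ^ 2 ∂D.μ := by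
      have i2 : Integrable (fun y => β y ^ 2 * ∑ j, ‖D.db (fun x => T k w x - T l w x) y (ee j)‖ ^ 2) D.μ :=
        Dom.integrable_of_cont (c1.mul
          (continuous_finsetSum _ fun j _ => (((hv k).sub (hv l)).db _).continuous.norm.pow 2))
          (HasCompactSupport.intro hc fun y hy => by simp [image_eq_zero_of_notMem_tsupport hy])
      refine le_trans (integral_mono_of_nonneg (.of_forall fun _ => sq_nonneg _) i2.integrableOn ?_)
        (setIntegral_le_integral i2 (.of_forall fun y => by positivity))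
      filter_upwards [ae_restrict_mem ho.measurableSet] with y hy
      rw [(hU' hy).1, one_pow, one_mul, ← Dom.db_sub ((hv k).dif y) ((hv l).dif y)]
      exact Finset.single_le_sum (f := fun j => ‖D.db (fun x => T k w x - T l w x) y (ee j)‖ ^ 2)
        (fun _ _ => sq_nonneg _) (Finset.mem_univ j)
    have i3 := fun j => int_sq (((hF j).2.mem k).sub ((hF j).2.mem l))
    have h4 : ∫ y, β y ^ 2 * ∑ j, ‖T k (f j) y - T l (f j) y‖ ^ 2 ∂D.μ ≤
        C1 * ∑ j, ∫ y in U, ‖T k (f j) y - T l (f j) y‖ ^ 2 ∂D.μ := by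
      rw [← setIntegral_eq_integral_of_forall_compl_eq_zero (s := U) fun y hy => by simp [z0 y hy],
        ← integral_finsetSum (f := fun j y => ‖T k (f j) y - T l (f j) y‖ ^ 2) _ fun j _ => i3 j,
        ← integral_const_mul]
      refine integral_mono_of_nonneg (.of_forall fun y => by positivity)
        ((integrable_finsetSum _ fun j _ => i3 j).const_mul C1) ?_
      filter_upwards [ae_restrict_mem hU.measurableSet] with y hy
      exact mul_le_mul_of_nonneg_right (b1 ⟨y, hUK hy, rfl⟩) (by positivity)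
    have h5 : ∫ y, (∑ j, ‖D.dz (fun x => (β x : ℂ)) y (ee j)‖ ^ 2) * ‖T k w y - T l w y‖ ^ 2 ∂D.μ ≤
        C2 * ∫ y in U, ‖T k w y - T l w y‖ ^ 2 ∂D.μ := by
      rw [← setIntegral_eq_integral_of_forall_compl_eq_zero (s := U) fun y hy => by simp [z1 y hy],
        ← integral_const_mul]
      refine integral_mono_of_nonneg (.of_forall fun y => by positivity)
        ((int_sq ((hL.mem k).sub (hL.mem l))).const_mul C2) ?_
      filter_upwards [ae_restrict_mem hU.measurableSet] with y hy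
      exact mul_le_mul_of_nonneg_right (b2 ⟨y, hUK hy, rfl⟩) (by positivity)
    have h6 := mul_le_mul_of_nonneg_left
      (Finset.sum_le_sum fun j (_ : j ∈ Finset.univ) => (hF j).2.cauchy k l) p1
    have h7 := mul_le_mul_of_nonneg_left (hL.cauchy k l) p2
    rw [Finset.sum_add_distrib, ← Finset.mul_sum, ← Finset.mul_sum] at h6
    linarith
  choose G hG using key
  exact ⟨U', ho, hy', ⟨K, hK, fun x hx => hUK (hVU (hU' hx).2)⟩, fun k => T k w, G, hv, hL.mono hle, hG⟩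

theorem App.mul {w b : M → ℂ} {U K : Set M} (h : App D (D.μ.restrict U) w) (hU : MeasurableSet U)
    (hK : IsCompact K) (hUK : U ⊆ K) (hb : D.Sm b) : App D (D.μ.restrict U) fun y => b y * w y := by
  obtain ⟨v, G, hv, h, hG⟩ := h
  obtain ⟨C, hC⟩ := bdd_cont (D := D) hb.continuous hK hU hUK
  refine ⟨fun k y => b y * v k y, fun j y => b y * G j y + D.db b y (ee j) * w y, fun k => hb.mul (hv k),
    h.bdd_mul hb.continuous.aestronglyMeasurable hC, fun j => ?_⟩
  obtain ⟨C', hC'⟩ := bdd_cont (D := D) (hb.db (ee j)).continuous hK hU hUK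
  refine (((hG j).bdd_mul hb.continuous.aestronglyMeasurable hC).add
    (h.bdd_mul (hb.db (ee j)).continuous.aestronglyMeasurable hC')).congr (fun k => .of_forall fun y => ?_) .rfl
  exact (Dom.db_mul (hb.dif y) ((hv k).dif y) _).symm

/-- `loc_app0` with `w = g a`, `f j = g db a (ee j)`, then `App.mul` with `1 / a` -/
theorem loc_app {g : M → ℂ} {a : M → ℝ} (ha : D.Sm a) (hpos : ∀ y, 0 < a y) (hg : Loc2 D g)
    (horth : ∀ χ, Tst D χ →
      ∫ y, g y * ∑ j, D.db (fun y' => a y' * D.dz χ y' (ee j)) y (ee j) ∂D.μ = 0) (y₀ : M) :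
    ∃ U, IsOpen U ∧ y₀ ∈ U ∧ App D (D.μ.restrict U) g := by
  have hA := ha.ofReal
  have hw := hg.mul hA.continuous
  have hf := fun j => hg.mul (hA.db (ee j)).continuous
  obtain ⟨U, hU, hy, ⟨K, hK, hUK⟩, h⟩ := loc_app0 hw hf (fun χ hχ => by
    have i1 := fun j => hw.int_mul ((hχ.dz (ee j)).db (ee j)).1.continuous ((hχ.dz (ee j)).db (ee j)).2
    have i2 := fun j => (hf j).int_mul (hχ.dz (ee j)).1.continuous (hχ.dz (ee j)).2
    rw [eq_neg_iff_add_eq_zero, ← Finset.sum_add_distrib, ← horth χ hχ]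
    simp only [fun j => (integral_add (i1 j) (i2 j)).symm]
    rw [← integral_finsetSum (f := fun j y => g y * a y * D.db (fun x => D.dz χ x (ee j)) y (ee j) +
      g y * D.db (fun x => (a x : ℂ)) y (ee j) * D.dz χ y (ee j)) _ fun j _ => (i1 j).add (i2 j)]
    refine integral_congr_ae (.of_forall fun y => ?_)
    simp only [Finset.mul_sum, Dom.db_mul (hA.dif y) ((hχ.1.dz _).dif y)]
    exact Finset.sum_congr rfl fun j _ => by ring) y₀
  have hne : ∀ y, (a y : ℂ) ≠ 0 := fun y => Complex.ofReal_ne_zero.2 (hpos y).ne'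
  have h2 := h.mul hU.measurableSet hK hUK (hA.comp' (Φ := fun z : ℂ => z⁻¹) fun y => contDiffAt_inv ℝ (hne y))
  refine ⟨U, hU, hy, ?_⟩
  convert h2 using 2 with y
  field_simp [hne y]

/-- partition of unity: `v k = ∑ θ i * v i k`, `G j = ∑ (θ i * G i j + db (θ i) (ee j) * g)`; `L2.indicator`, `L2.bdd_mul` -/
theorem app_cpt {g : M → ℂ} (h : ∀ y₀, ∃ U, IsOpen U ∧ y₀ ∈ U ∧ App D (D.μ.restrict U) g) {K : Set M}
    (hK : IsCompact K) : App D (D.μ.restrict K) g := by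
  choose U hU hy v G hv hL hG using h
  obtain ⟨N, c, θ, hθ, h1⟩ := exists_part D hK fun y => (hU y).mem_nhds (hy y)
  have key : ∀ (i : Fin N) {b : M → ℂ} {F : ℕ → M → ℂ} {f : M → ℂ}, Tst D b → (∀ y ∉ U (c i), b y = 0) →
      L2 (D.μ.restrict (U (c i))) F f → L2 (D.μ.restrict K) (fun k y => b y * F k y) fun y => b y * f y :=
    fun i b F f hb h0 h => by
      obtain ⟨C, hC⟩ := hb.2.exists_bound_of_continuous hb.1.continuous
      have e : ∀ (u : M → ℂ) y, b y * (U (c i)).indicator u y = b y * u y := fun u y => by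
        by_cases k : y ∈ U (c i)
        · rw [indicator_of_mem k]
        · rw [h0 y k, zero_mul, zero_mul]
      exact (((h.indicator (hU _).measurableSet).bdd_mul hb.1.continuous.aestronglyMeasurable
        (.of_forall hC)).congr (fun k => .of_forall (e _)) (.of_forall (e _))).mono Measure.restrict_le_self
  have z0 : ∀ i, ∀ y ∉ U (c i), θ i y = 0 := fun i y hy =>
    image_eq_zero_of_notMem_tsupport fun k => hy ((hθ i).2 k)
  refine ⟨fun k y => ∑ i, θ i y * v (c i) k y, fun j y => ∑ i, (θ i y * G (c i) j y + D.db (θ i) y (ee j) * g y),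
    fun k => Dom.Sm.sum fun i _ => (hθ i).1.1.mul (hv _ k), ?_, fun j => ?_⟩
  · refine (L2.sum fun i (_ : i ∈ Finset.univ) => key i (hθ i).1 (z0 i) (hL _)).congr (fun _ => .rfl) ?_
    filter_upwards [ae_restrict_mem hK.measurableSet] with y hy
    rw [← Finset.sum_mul, h1 y hy, one_mul]
  · refine (L2.sum fun i (_ : i ∈ Finset.univ) => (key i (hθ i).1 (z0 i) (hG _ j)).add
      (key i ((hθ i).1.db (ee j)) (fun y hy => db_zero (fun k => hy ((hθ i).2 k)) _) (hL _))).congr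
      (fun k => .of_forall fun y => ?_) .rfl
    simp only [db_sum fun i (_ : i ∈ Finset.univ) => (hθ i).1.1.mul (hv (c i) k),
      Dom.db_mul ((hθ _).1.1.dif y) ((hv _ k).dif y)]

end Crest.Agent.R271.Reg
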