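import Crest.Agent.R271.H.RegBase
import Crest.Agent.R335.T.Mol

/-! # Row 271, block H (regularity): mollifiers in a chart -/

set_option autoImplicit false
set_option linter.unusedSectionVars false

open MeasureTheory Filter Topology Set Metric
open scoped ENNReal ContDiff

noncomputable section

namespace Crest.Agent.R271.Reg

variable {n : ℕ} {M : Type} [TopologicalSpace M] [T2Space M] [SecondCountableTopology M]
  [MeasurableSpace M] [BorelSpace M] {D : Dom n M}

/-- convolution -/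
def cv (f φ : E n → ℂ) (x : E n) : ℂ := ∫ y, f y * φ (x - y)

/-- `∂̄` (`c = I`) and `∂` (`c = -I`) on `ℂⁿ` -/
def pd (c : ℂ) (ξ : E n) (φ : E n → ℂ) (x : E n) : ℂ :=
  (fderiv ℝ φ x ξ + c * fderiv ℝ φ x (Complex.I • ξ)) / 2

variable (D) in
/-- the same on `M` -/
def pD (c : ℂ) (ξ : E n) (u : M → ℂ) (y : M) : ℂ := (D.d u y ξ + c * D.d u y (Complex.I • ξ)) / 2

theorem db_eq (u : M → ℂ) (y : M) (ξ : E n) : D.db u y ξ = pD D Complex.I ξ u y := rfl

theorem dz_eq (u : M → ℂ) (y : M) (ξ : E n) : D.dz u y ξ = pD D (-Complex.I) ξ u y := by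
  rw [Dom.dz, pD]
  ring

/-- kernels -/
def Ker (δ : ℝ) (φ : E n → ℂ) : Prop := ContDiff ℝ ∞ φ ∧ tsupport φ ⊆ closedBall 0 δ

variable {δ : ℝ} {φ f : E n → ℂ}

theorem Ker.cs (h : Ker δ φ) : HasCompactSupport φ :=
  (isCompact_closedBall 0 δ).of_isClosed_subset (isClosed_tsupport φ) h.2

theorem Ker.fd (h : Ker δ φ) (v : E n) : Ker δ fun x => fderiv ℝ φ x v :=
  ⟨(h.1.fderiv_right (m := ∞) (by simp)).clm_apply contDiff_const,
    (tsupport_fderiv_apply_subset ℝ v).trans h.2⟩

theorem Ker.zero (h : Ker δ φ) {x : E n} (hx : δ < ‖x‖) : φ x = 0 :=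
  image_eq_zero_of_notMem_tsupport fun k => by
    have := h.2 k
    rw [mem_closedBall_zero_iff] at this
    linarith

theorem Ker.pd (h : Ker δ φ) (c : ℂ) (ξ : E n) : Ker δ (pd c ξ φ) := by
  refine ⟨((h.fd ξ).1.add (contDiff_const.mul (h.fd _).1)).div_const 2, ?_⟩
  refine closure_minimal (fun x hx => ?_) isClosed_closedBall
  by_contra k
  rw [mem_closedBall_zero_iff, not_le] at k
  exact hx (by simp [Reg.pd, (h.fd ξ).zero k, (h.fd (Complex.I • ξ)).zero k])

theorem cv_smooth (hf : LocallyIntegrable f) (h : Ker δ φ) : ContDiff ℝ ∞ (cv f φ) :=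
  h.cs.contDiff_convolution_right (ContinuousLinearMap.mul ℝ ℂ) hf h.1

theorem cv_int (hf : LocallyIntegrable f) (h : Ker δ φ) (x : E n) : Integrable fun y => f y * φ (x - y) :=
  h.cs.convolutionExists_right (ContinuousLinearMap.mul ℝ ℂ) hf h.1.continuous x

theorem cv_fderiv (hf : LocallyIntegrable f) (h : Ker δ φ) (x v : E n) :
    fderiv ℝ (cv f φ) x v = cv f (fun y => fderiv ℝ φ y v) x := by
  have h1 : ContDiff ℝ 1 φ := h.1.of_le (by simp)
  have hd := h.cs.hasFDerivAt_convolution_right (ContinuousLinearMap.mul ℝ ℂ) hf h1 x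
  have e : cv f φ = convolution f φ (ContinuousLinearMap.mul ℝ ℂ) volume := rfl
  rw [e, hd.fderiv, convolution_precompR_apply _ hf (h.cs.fderiv ℝ) (h1.continuous_fderiv one_ne_zero)]
  rfl

theorem cv_pd (hf : LocallyIntegrable f) (h : Ker δ φ) (c : ℂ) (ξ x : E n) :
    pd c ξ (cv f φ) x = cv f (pd c ξ φ) x := by
  rw [pd, cv_fderiv hf h, cv_fderiv hf h, cv, cv, cv, ← integral_const_mul,
    ← integral_add (cv_int hf (h.fd ξ) x) ((cv_int hf (h.fd _) x).const_mul c), ← integral_div]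
  refine integral_congr_ae (.of_forall fun y => ?_)
  simp only [pd]
  ring

/-- the mollifier of radius `1 / (k + 1)` -/
def ker (n k : ℕ) (x : E n) : ℂ := ((R335.molB (E n) k).normed volume x : ℝ)

theorem ker_ker (k : ℕ) : Ker (1 / (k + 1)) (ker n k) := by
  refine ⟨Complex.ofRealCLM.contDiff.comp (R335.molB (E n) k).contDiff_normed, ?_⟩
  refine closure_minimal (fun x hx => ?_) isClosed_closedBall
  have : x ∈ Function.support ((R335.molB (E n) k).normed volume) := fun k => hx (by simp [ker, k])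
  rw [ContDiffBump.support_normed_eq] at this
  exact ball_subset_closedBall this

theorem mol_L2 {u : E n → ℝ} (hu : MemLp u 2 volume) :
    L2 volume (fun k x => ((R335.mol k u x : ℝ) : ℂ)) fun x => (u x : ℂ) := by
  refine ⟨fun k => (R335.mol_memLp hu k).1.ofReal, hu.ofReal, ?_⟩
  refine Tendsto.congr (fun k => integral_congr_ae (.of_forall fun x => ?_)) (R335.mol_L2to hu)
  simp only [← Complex.ofReal_sub, Complex.norm_real, Real.norm_eq_abs, sq_abs]

theorem cv_L2 (hf : MemLp f 2 volume) : L2 volume (fun k => cv f (ker n k)) f := by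
  have h1 := mol_L2 hf.re
  have h2 := (mol_L2 hf.im).bdd_mul (b := fun _ => Complex.I) aestronglyMeasurable_const
    (C := 1) (.of_forall fun _ => by simp)
  refine (h1.add h2).congr (fun k => .of_forall fun x => ?_) (.of_forall fun x => ?_)
  · have i1 := cv_int (hf.re.ofReal (K := ℂ) |>.locallyIntegrable one_le_two) (ker_ker k) x
    have i2 := cv_int (hf.im.ofReal (K := ℂ) |>.locallyIntegrable one_le_two) (ker_ker k) x
    simp only [R335.mol_eq, ← integral_complex_ofReal, Complex.ofReal_mul]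
    rw [← integral_const_mul]
    refine (integral_add i1 (i2.const_mul Complex.I)).symm.trans
      (integral_congr_ae (.of_forall fun y => ?_))
    simp only [RCLike.re_to_complex, RCLike.im_to_complex, Complex.coe_algebraMap]
    conv_rhs => rw [← Complex.re_add_im (f y)]
    ring
  · simp only [RCLike.re_to_complex, RCLike.im_to_complex]
    conv_rhs => rw [← Complex.re_add_im (f x)]
    ring

theorem L2.shift {α : Type} [MeasurableSpace α] {μ : Measure α} {F : ℕ → α → ℂ} {f : α → ℂ} (h : L2 μ F f)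
    (m : ℕ) : L2 μ (fun k => F (k + m)) f :=
  ⟨fun _ => h.mem _, h.lim, h.tend.comp (tendsto_add_atTop_nat m)⟩

theorem d_comp_p {Φ : E n → ℂ} {y : M} (h : DifferentiableAt ℝ Φ (D.p y)) :
    D.d (fun x => Φ (D.p x)) y = fderiv ℝ Φ (D.p y) := by
  rw [((Dom.sm_p.dif y).comp h.hasFDerivAt).2, Dom.d_p, ContinuousLinearMap.comp_id]

theorem pD_comp_p {Φ : E n → ℂ} (h : ContDiff ℝ ∞ Φ) (c : ℂ) (ξ : E n) (y : M) :
    pD D c ξ (fun x => Φ (D.p x)) y = pd c ξ Φ (D.p y) := by
  rw [pD, d_comp_p (h.differentiable (by simp) _), pd]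

theorem pd_refl (h : Ker δ φ) (c : ℂ) (ξ z x : E n) :
    pd c ξ (fun x => φ (z - x)) x = -pd c ξ φ (z - x) := by
  have h3 : HasFDerivAt (fun y => φ (z - y))
      ((fderiv ℝ φ (z - x)).comp (-ContinuousLinearMap.id ℝ (E n))) x :=
    (h.1.differentiable (by simp) _).hasFDerivAt.comp x ((hasFDerivAt_id x).const_sub z)
  simp only [pd, h3.fderiv, ContinuousLinearMap.comp_apply, neg_apply,
    ContinuousLinearMap.id_apply, map_neg]
  ring

variable (D) in
/-- the kernel centred at `z`, lifted to `M` -/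
def lf (e : OpenPartialHomeomorph M (E n)) (φ : E n → ℂ) (z : E n) : M → ℂ :=
  e.source.indicator fun x => φ (z - D.p x)

variable {e : OpenPartialHomeomorph M (E n)} {z : E n}

theorem lf_tst (he : D.IsCh e) (h : Ker δ φ) (hz : closedBall z δ ⊆ e.target) :
    Tst D (lf D e φ z) ∧ tsupport (lf D e φ z) ⊆ e.source := by
  obtain ⟨h1, h2, h3⟩ := he.sm_indicator (b := fun x => φ (z - x))
    (h.1.comp (contDiff_const.sub contDiff_id)).contDiffOn (isCompact_closedBall z δ) hz
    fun x _ hx => h.zero (by rwa [mem_closedBall', dist_eq_norm, not_le] at hx)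
  refine ⟨⟨h1, h3.of_isClosed_subset (isClosed_tsupport _) h2⟩, h2.trans ?_⟩
  rintro _ ⟨x, hx, rfl⟩
  exact e.map_target (hz hx)

theorem pD_lf (he : D.IsCh e) (h : Ker δ φ) (hz : closedBall z δ ⊆ e.target) (c : ℂ) (ξ : E n) (x : M) :
    pD D c ξ (lf D e φ z) x = -lf D e (pd c ξ φ) z x := by
  by_cases hx : x ∈ e.source
  · have e1 : lf D e φ z =ᶠ[𝓝 x] fun x => φ (z - D.p x) := by
      filter_upwards [e.open_source.mem_nhds hx] with x' hx'
      exact indicator_of_mem hx' _
    have e2 := pD_comp_p (D := D) (Φ := fun x => φ (z - x)) (h.1.comp (contDiff_const.sub contDiff_id)) c ξ x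
    rw [pd_refl h] at e2
    rw [lf, lf, indicator_of_mem hx, ← e2, pD, pD, ← Dom.d_congr e1]
    rfl
  · rw [pD, Dom.d_zero_of_notMem fun k => hx ((lf_tst he h hz).2 k), lf, indicator_of_notMem hx]
    simp

theorem int_lf (he : D.IsCh e) (h : Ker δ φ) {B : Set (E n)} (hB : MeasurableSet B) (hBe : B ⊆ e.target)
    (hz : closedBall z δ ⊆ B) (f : M → ℂ) :
    ∫ x, f x * lf D e φ z x ∂D.μ = cv (B.indicator (f ∘ e.symm)) φ z := by
  have hm : MeasurableSet (e.source ∩ D.p ⁻¹' B) :=
    e.open_source.measurableSet.inter (D.p_cont.measurable hB)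
  have e1 : D.p '' (e.source ∩ D.p ⁻¹' B) = B := by
    refine Subset.antisymm (by rintro _ ⟨x, hx, rfl⟩; exact hx.2) fun x hx => ?_
    exact ⟨e.symm x, ⟨e.map_target (hBe hx), by simpa [he.p_symm (hBe hx)] using hx⟩, he.p_symm (hBe hx)⟩
  rw [← setIntegral_eq_integral_of_forall_compl_eq_zero (s := e.source ∩ D.p ⁻¹' B),
    he.integral_eq hm inter_subset_left, e1, ← integral_indicator hB, cv]
  · refine integral_congr_ae (.of_forall fun x => ?_)
    by_cases hx : x ∈ B
    · simp [lf, hx, e.map_target (hBe hx), he.p_symm (hBe hx)]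
    · simp [hx]
  · intro x hx
    by_cases hx' : x ∈ e.source
    · have : D.p x ∉ closedBall z δ := fun k => hx ⟨hx', hz k⟩
      rw [mem_closedBall', dist_eq_norm, not_le] at this
      simp [lf, h.zero this]
    · simp [lf, hx']

variable (D) in
/-- mollifiers near `y₀` -/
theorem exists_mol (y₀ : M) : ∃ U V : Set M, IsOpen U ∧ IsOpen V ∧ y₀ ∈ V ∧ V ⊆ U ∧
    (∃ K, IsCompact K ∧ U ⊆ K) ∧ ∃ (T : ℕ → (M → ℂ) → M → ℂ) (χ : ℕ → M → M → ℂ),
      (∀ f, MemLp f 2 (D.μ.restrict U) → (∀ k, D.Sm (T k f)) ∧ L2 (D.μ.restrict U) (fun k => T k f) f) ∧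
      ∀ k, ∀ y ∈ V, Tst D (χ k y) ∧ ∀ f, MemLp f 2 (D.μ.restrict U) → ∀ ξ η,
        D.db (T k f) y ξ = -∫ x, f x * D.db (χ k y) x ξ ∂D.μ ∧
        D.dz (T k f) y ξ = -∫ x, f x * D.dz (χ k y) x ξ ∂D.μ ∧
        D.db (fun y' => D.dz (T k f) y' ξ) y η = ∫ x, f x * D.db (fun x' => D.dz (χ k y) x' ξ) x η ∂D.μ := by
  obtain ⟨r, hr, hre⟩ := (nhds_basis_closedBall.mem_iff).1
    ((D.ch y₀).open_target.mem_nhds (D.ch_target y₀))
  set e := D.ch y₀
  have he : D.IsCh e := D.isCh y₀
  set B := ball (D.p y₀) r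
  have hBe : B ⊆ e.target := ball_subset_closedBall.trans hre
  obtain ⟨m, hm⟩ := exists_nat_one_div_lt (half_pos hr)
  have hk : ∀ k : ℕ, Ker (1 / (m + 1)) (ker n (k + m)) := fun k =>
    ⟨(ker_ker _).1, (ker_ker _).2.trans (closedBall_subset_closedBall
      (one_div_le_one_div_of_le (by positivity) (by push_cast; linarith [(Nat.cast_nonneg k : (0 : ℝ) ≤ k)])))⟩
  have hUm : MeasurableSet (e.source ∩ D.p ⁻¹' B) :=
    e.open_source.measurableSet.inter (D.p_cont.measurable measurableSet_ball)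
  have hL : ∀ f : M → ℂ, MemLp f 2 (D.μ.restrict (e.source ∩ D.p ⁻¹' B)) →
      MemLp (B.indicator (f ∘ e.symm)) 2 volume := fun f hf => by
    rw [← map_symm he measurableSet_ball hBe] at hf
    exact (memLp_indicator_iff_restrict measurableSet_ball).2 (hf.comp_of_map
      ((e.continuousOn_symm.mono hBe).aemeasurable measurableSet_ball))
  refine ⟨e.source ∩ D.p ⁻¹' B, e.source ∩ D.p ⁻¹' ball (D.p y₀) (r / 2),
    e.open_source.inter (isOpen_ball.preimage D.p_cont), e.open_source.inter (isOpen_ball.preimage D.p_cont),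
    ⟨D.ch_source y₀, mem_ball_self (half_pos hr)⟩,
    inter_subset_inter_right _ (preimage_mono (ball_subset_ball (half_le_self hr.le))),
    ⟨e.symm '' closedBall (D.p y₀) r,
      (isCompact_closedBall _ _).image_of_continuousOn (e.continuousOn_symm.mono hre),
      fun x hx => ⟨D.p x, ball_subset_closedBall hx.2, he.symm_p hx.1⟩⟩,
    fun k f y => cv (B.indicator (f ∘ e.symm)) (ker n (k + m)) (D.p y),
    fun k y => lf D e (ker n (k + m)) (D.p y), fun f hf => ⟨fun k => Dom.sm_of_comp_p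
      (cv_smooth ((hL f hf).locallyIntegrable one_le_two) (hk k)), ?_⟩, fun k y hy => ?_⟩
  · have h1 := ((cv_L2 (hL f hf)).shift m).mono (Measure.restrict_le_self (s := B))
    rw [← map_p he measurableSet_ball hBe] at h1
    refine (h1.comp D.p_cont.aemeasurable).congr (fun _ => .rfl) ?_
    filter_upwards [ae_restrict_mem hUm] with x hx
    rw [indicator_of_mem (show D.p x ∈ B from hx.2), Function.comp, he.symm_p hx.1]
  · have hz : closedBall (D.p y) (1 / (m + 1)) ⊆ B :=
      closedBall_subset_ball' (by have := hy.2; rw [mem_preimage, mem_ball] at this; linarith)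
    have hz' := hz.trans hBe
    refine ⟨(lf_tst he (hk k) hz').1, fun f hf ξ η => ?_⟩
    have hl := (hL f hf).locallyIntegrable one_le_two
    have a1 : ∀ {φ : E n → ℂ}, Ker (1 / (m + 1)) φ → ∀ c ξ y',
        pD D c ξ (fun y => cv (B.indicator (f ∘ e.symm)) φ (D.p y)) y' =
          cv (B.indicator (f ∘ e.symm)) (pd c ξ φ) (D.p y') := fun h c ξ y' => by
      rw [pD_comp_p (cv_smooth hl h), cv_pd hl h]
    have a2 : ∀ {φ : E n → ℂ}, Ker (1 / (m + 1)) φ → ∀ c ξ,
        ∫ x, f x * pD D c ξ (lf D e φ (D.p y)) x ∂D.μ = -cv (B.indicator (f ∘ e.symm)) (pd c ξ φ) (D.p y) :=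
      fun h c ξ => by
        simp only [pD_lf he h hz', mul_neg, integral_neg]
        rw [int_lf he (h.pd c ξ) measurableSet_ball hBe hz]
    refine ⟨by simp only [db_eq, a1 (hk k), a2 (hk k), neg_neg], by simp only [dz_eq, a1 (hk k), a2 (hk k), neg_neg], ?_⟩
    simp only [db_eq, dz_eq, a1 (hk k), a1 ((hk k).pd _ _), pD_lf he (hk k) hz']
    rw [← neg_neg (cv _ _ _), ← a2 ((hk k).pd _ _), ← integral_neg]
    refine integral_congr_ae (.of_forall fun x => ?_)
    simp only [pD, Dom.d_neg, neg_apply]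
    ring

end Crest.Agent.R271.Reg
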